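import Vale.Agent.P154.End.Reg.Table
import Vale.Agent.P154.NegTree

/-!
# The three-state threshold on every regular tree
-/

namespace Vale.Agent.P154.Q3

open Filter Topology

variable {lam : ℝ}

/-- Without reconstruction on the tree with `b` children there is none with `a ≤ b` children. -/
theorem tendsto_aRegular_of_le {a b : ℕ} (hab : a ≤ b) (h0 : -1 / 2 ≤ lam) (h1 : lam ≤ 1)
    (h : Tendsto (aRegular 3 b lam) atTop (𝓝 0)) : Tendsto (aRegular 3 a lam) atTop (𝓝 0) := by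
  have hA := adm_three' h0 h1
  have e : ∀ k n, P154.mag 3 lam n (regular k n) = fval (rf P2) (lik lam n (regTree k n)) / 9 :=
    fun k n => by rw [← regTree_eq, mag_eq, fval_P2_eq _ h0 h1]; ring
  have h2 : Tendsto (fun n => 2 * aRegular 3 b lam n) atTop (𝓝 0) := by
    simpa using h.const_mul 2
  refine tendsto_aRegular hA (squeeze_zero (fun n => mag_nonneg hA n _) (fun n => ?_) h2)
  refine le_trans ?_ (mag_le_advantage hA n (regular b n))
  rw [e, e]
  have hd := dom_regTree h0 h1 hab n _ posi_P2.toSublin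
  have : ∀ k, fval (rf P2) (lik lam n (regTree k n)) =
      fval (rf fun r => ∑ i, r i ^ 2) (lik lam n (regTree k n)) := fun k => by
    simp only [fval, rf_P2_eq]
  rw [this a, this b]
  linarith

open End in
/-- No reconstruction up to the threshold for negative eigenvalues. -/
theorem reg_nonrec_neg {d : ℕ} (hd : 2 ≤ d) (hd' : d < 27) (h0 : -1 / 2 ≤ lam) (hn : lam < 0)
    (hKS : (d : ℝ) * lam ^ 2 ≤ 1) : Tendsto (aRegular 3 d lam) atTop (𝓝 0) := by
  have hsq : lam ^ 2 ≤ 1 / 4 := by nlinarith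
  rcases le_or_gt d 4 with h4 | h4
  · exact tendsto_aRegular_of_le h4 h0 (by linarith) (R4.nonrec hn h0 (by linarith))
  interval_cases d <;> push_cast at hKS
  · exact R5.nonrec hn h0 hKS
  · exact R6.nonrec hn h0 hKS
  · exact R7.nonrec hn h0 hKS
  · exact R8.nonrec hn h0 hKS
  · exact R9.nonrec hn h0 hKS
  · exact R10.nonrec hn h0 hKS
  · exact R11.nonrec hn h0 hKS
  · exact R12.nonrec hn h0 hKS
  · exact R13.nonrec hn h0 hKS
  · exact R14.nonrec hn h0 hKS
  · exact R15.nonrec hn h0 hKS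
  · exact R16.nonrec hn h0 hKS
  · exact R17.nonrec hn h0 hKS
  · exact R18.nonrec hn h0 hKS
  · exact R19.nonrec hn h0 hKS
  · exact R20.nonrec hn h0 hKS
  · exact R21.nonrec hn h0 hKS
  · exact R22.nonrec hn h0 hKS
  · exact R23.nonrec hn h0 hKS
  · exact R24.nonrec hn h0 hKS
  · exact R25.nonrec hn h0 hKS
  · exact R26.nonrec hn h0 hKS

/-- The Kesten-Stigum threshold is exact on every regular tree. -/
theorem reg_iff_all {d : ℕ} (hd : 2 ≤ d) (h0 : -1 / 2 ≤ lam) (h1 : lam ≤ 1) :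
    (Tendsto (aRegular 3 d lam) atTop (𝓝 0) ↔ (d : ℝ) * lam ^ 2 ≤ 1) ∧
      (1 < (d : ℝ) * lam ^ 2 → ∃ c > 0, ∀ n, c ≤ aRegular 3 d lam n) := by
  rcases le_or_gt 27 d with hl | hs
  · exact reg_iff_large hl h0 h1
  rcases le_or_gt 0 lam with hp | hn
  · exact reg_iff hd hp h1
  have hA := adm_three' h0 h1
  have key : 1 < (d : ℝ) * lam ^ 2 → ∃ c > 0, ∀ n, c ≤ aRegular 3 d lam n := fun h =>
    ⟨_, ksBound_pos hA h, ksBound_le_aRegular hA (by omega) h⟩
  refine ⟨⟨fun ht => not_lt.1 fun hlt => ?_, reg_nonrec_neg hd hs h0 hn⟩, key⟩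
  obtain ⟨c, hc, hle⟩ := key hlt
  exact not_tendsto_of_le hc hle ht

end Vale.Agent.P154.Q3
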