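import Vale.Agent.P154.End.RegGlue
import Vale.Agent.P154.End.Reg.C4
import Vale.Agent.P154.DE.R4.Final
import Vale.Agent.P154.End.Reg.C5
import Vale.Agent.P154.DE.R5.Final
import Vale.Agent.P154.End.Reg.C6
import Vale.Agent.P154.DE.R6.Final
import Vale.Agent.P154.End.Reg.C7
import Vale.Agent.P154.DE.R7.Final
import Vale.Agent.P154.End.Reg.C8
import Vale.Agent.P154.DE.R8.Final
import Vale.Agent.P154.End.Reg.C9
import Vale.Agent.P154.DE.R9.Final
import Vale.Agent.P154.End.Reg.C10
import Vale.Agent.P154.DE.R10.Final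
import Vale.Agent.P154.End.Reg.C11
import Vale.Agent.P154.DE.R11.Final
import Vale.Agent.P154.End.Reg.C12
import Vale.Agent.P154.DE.R12.Final
import Vale.Agent.P154.End.Reg.C13
import Vale.Agent.P154.DE.R13.Final
import Vale.Agent.P154.End.Reg.C14
import Vale.Agent.P154.DE.R14.Final
import Vale.Agent.P154.End.Reg.C15
import Vale.Agent.P154.DE.R15.Final
import Vale.Agent.P154.End.Reg.C16
import Vale.Agent.P154.DE.R16.Final
import Vale.Agent.P154.End.Reg.C17
import Vale.Agent.P154.DE.R17.Final
import Vale.Agent.P154.End.Reg.C18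
import Vale.Agent.P154.DE.R18.Final
import Vale.Agent.P154.End.Reg.C19
import Vale.Agent.P154.DE.R19.Final
import Vale.Agent.P154.End.Reg.C20
import Vale.Agent.P154.DE.R20.Final
import Vale.Agent.P154.End.Reg.C21
import Vale.Agent.P154.DE.R21.Final
import Vale.Agent.P154.End.Reg.C22
import Vale.Agent.P154.DE.R22.Final
import Vale.Agent.P154.End.Reg.C23
import Vale.Agent.P154.DE.R23.Final
import Vale.Agent.P154.End.Reg.C24
import Vale.Agent.P154.DE.R24.Final
import Vale.Agent.P154.End.Reg.C25
import Vale.Agent.P154.DE.R25.Final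
import Vale.Agent.P154.End.Reg.C26
import Vale.Agent.P154.DE.R26.Final

/-!
# No reconstruction up to the threshold on regular trees with 4 to 26 children
-/

namespace Vale.Agent.P154.Q3.End

open Filter Topology

/-- No reconstruction on the tree with 4 children up to the threshold. -/
theorem R4.nonrec {lam : ℝ} (h0 : lam < 0) (h1 : -1 / 2 ≤ lam) (hKS : (4 : ℝ) * lam ^ 2 ≤ 1) :
    Tendsto (aRegular 3 4 lam) atTop (𝓝 0) := by
  refine reg_nonrec R4.check_ok rfl (N₀ := 200) (by norm_num) ?_ ?_ (fun l a b => ?_) h0 h1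
    (by exact_mod_cast hKS)
  · norm_num [Setup.mu, R4.setup]
  · norm_num [Setup.mu, R4.setup]
  · simp only [Setup.mu, R4.setup] at a
    simpa [R4.setup] using DE.R4.bounds (lam := l) (by push_cast at a; linarith) b

/-- No reconstruction on the tree with 5 children up to the threshold. -/
theorem R5.nonrec {lam : ℝ} (h0 : lam < 0) (h1 : -1 / 2 ≤ lam) (hKS : (5 : ℝ) * lam ^ 2 ≤ 1) :
    Tendsto (aRegular 3 5 lam) atTop (𝓝 0) := by
  refine reg_nonrec R5.check_ok rfl (N₀ := 75) (by norm_num) ?_ ?_ (fun l a b => ?_) h0 h1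
    (by exact_mod_cast hKS)
  · norm_num [Setup.mu, R5.setup]
  · norm_num [Setup.mu, R5.setup]
  · simp only [Setup.mu, R5.setup] at a
    simpa [R5.setup] using DE.R5.bounds (lam := l) (by push_cast at a; linarith) b

/-- No reconstruction on the tree with 6 children up to the threshold. -/
theorem R6.nonrec {lam : ℝ} (h0 : lam < 0) (h1 : -1 / 2 ≤ lam) (hKS : (6 : ℝ) * lam ^ 2 ≤ 1) :
    Tendsto (aRegular 3 6 lam) atTop (𝓝 0) := by
  refine reg_nonrec R6.check_ok rfl (N₀ := 56) (by norm_num) ?_ ?_ (fun l a b => ?_) h0 h1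
    (by exact_mod_cast hKS)
  · norm_num [Setup.mu, R6.setup]
  · norm_num [Setup.mu, R6.setup]
  · simp only [Setup.mu, R6.setup] at a
    simpa [R6.setup] using DE.R6.bounds (lam := l) (by push_cast at a; linarith) b

/-- No reconstruction on the tree with 7 children up to the threshold. -/
theorem R7.nonrec {lam : ℝ} (h0 : lam < 0) (h1 : -1 / 2 ≤ lam) (hKS : (7 : ℝ) * lam ^ 2 ≤ 1) :
    Tendsto (aRegular 3 7 lam) atTop (𝓝 0) := by
  refine reg_nonrec R7.check_ok rfl (N₀ := 69) (by norm_num) ?_ ?_ (fun l a b => ?_) h0 h1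
    (by exact_mod_cast hKS)
  · norm_num [Setup.mu, R7.setup]
  · norm_num [Setup.mu, R7.setup]
  · simp only [Setup.mu, R7.setup] at a
    simpa [R7.setup] using DE.R7.bounds (lam := l) (by push_cast at a; linarith) b

/-- No reconstruction on the tree with 8 children up to the threshold. -/
theorem R8.nonrec {lam : ℝ} (h0 : lam < 0) (h1 : -1 / 2 ≤ lam) (hKS : (8 : ℝ) * lam ^ 2 ≤ 1) :
    Tendsto (aRegular 3 8 lam) atTop (𝓝 0) := by
  refine reg_nonrec R8.check_ok rfl (N₀ := 44) (by norm_num) ?_ ?_ (fun l a b => ?_) h0 h1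
    (by exact_mod_cast hKS)
  · norm_num [Setup.mu, R8.setup]
  · norm_num [Setup.mu, R8.setup]
  · simp only [Setup.mu, R8.setup] at a
    simpa [R8.setup] using DE.R8.bounds (lam := l) (by push_cast at a; linarith) b

/-- No reconstruction on the tree with 9 children up to the threshold. -/
theorem R9.nonrec {lam : ℝ} (h0 : lam < 0) (h1 : -1 / 2 ≤ lam) (hKS : (9 : ℝ) * lam ^ 2 ≤ 1) :
    Tendsto (aRegular 3 9 lam) atTop (𝓝 0) := by
  refine reg_nonrec R9.check_ok rfl (N₀ := 41) (by norm_num) ?_ ?_ (fun l a b => ?_) h0 h1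
    (by exact_mod_cast hKS)
  · norm_num [Setup.mu, R9.setup]
  · norm_num [Setup.mu, R9.setup]
  · simp only [Setup.mu, R9.setup] at a
    simpa [R9.setup] using DE.R9.bounds (lam := l) (by push_cast at a; linarith) b

/-- No reconstruction on the tree with 10 children up to the threshold. -/
theorem R10.nonrec {lam : ℝ} (h0 : lam < 0) (h1 : -1 / 2 ≤ lam) (hKS : (10 : ℝ) * lam ^ 2 ≤ 1) :
    Tendsto (aRegular 3 10 lam) atTop (𝓝 0) := by
  refine reg_nonrec R10.check_ok rfl (N₀ := 30) (by norm_num) ?_ ?_ (fun l a b => ?_) h0 h1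
    (by exact_mod_cast hKS)
  · norm_num [Setup.mu, R10.setup]
  · norm_num [Setup.mu, R10.setup]
  · simp only [Setup.mu, R10.setup] at a
    simpa [R10.setup] using DE.R10.bounds (lam := l) (by push_cast at a; linarith) b

/-- No reconstruction on the tree with 11 children up to the threshold. -/
theorem R11.nonrec {lam : ℝ} (h0 : lam < 0) (h1 : -1 / 2 ≤ lam) (hKS : (11 : ℝ) * lam ^ 2 ≤ 1) :
    Tendsto (aRegular 3 11 lam) atTop (𝓝 0) := by
  refine reg_nonrec R11.check_ok rfl (N₀ := 31) (by norm_num) ?_ ?_ (fun l a b => ?_) h0 h1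
    (by exact_mod_cast hKS)
  · norm_num [Setup.mu, R11.setup]
  · norm_num [Setup.mu, R11.setup]
  · simp only [Setup.mu, R11.setup] at a
    simpa [R11.setup] using DE.R11.bounds (lam := l) (by push_cast at a; linarith) b

/-- No reconstruction on the tree with 12 children up to the threshold. -/
theorem R12.nonrec {lam : ℝ} (h0 : lam < 0) (h1 : -1 / 2 ≤ lam) (hKS : (12 : ℝ) * lam ^ 2 ≤ 1) :
    Tendsto (aRegular 3 12 lam) atTop (𝓝 0) := by
  refine reg_nonrec R12.check_ok rfl (N₀ := 24) (by norm_num) ?_ ?_ (fun l a b => ?_) h0 h1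
    (by exact_mod_cast hKS)
  · norm_num [Setup.mu, R12.setup]
  · norm_num [Setup.mu, R12.setup]
  · simp only [Setup.mu, R12.setup] at a
    simpa [R12.setup] using DE.R12.bounds (lam := l) (by push_cast at a; linarith) b

/-- No reconstruction on the tree with 13 children up to the threshold. -/
theorem R13.nonrec {lam : ℝ} (h0 : lam < 0) (h1 : -1 / 2 ≤ lam) (hKS : (13 : ℝ) * lam ^ 2 ≤ 1) :
    Tendsto (aRegular 3 13 lam) atTop (𝓝 0) := by
  refine reg_nonrec R13.check_ok rfl (N₀ := 24) (by norm_num) ?_ ?_ (fun l a b => ?_) h0 h1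
    (by exact_mod_cast hKS)
  · norm_num [Setup.mu, R13.setup]
  · norm_num [Setup.mu, R13.setup]
  · simp only [Setup.mu, R13.setup] at a
    simpa [R13.setup] using DE.R13.bounds (lam := l) (by push_cast at a; linarith) b

/-- No reconstruction on the tree with 14 children up to the threshold. -/
theorem R14.nonrec {lam : ℝ} (h0 : lam < 0) (h1 : -1 / 2 ≤ lam) (hKS : (14 : ℝ) * lam ^ 2 ≤ 1) :
    Tendsto (aRegular 3 14 lam) atTop (𝓝 0) := by
  refine reg_nonrec R14.check_ok rfl (N₀ := 21) (by norm_num) ?_ ?_ (fun l a b => ?_) h0 h1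
    (by exact_mod_cast hKS)
  · norm_num [Setup.mu, R14.setup]
  · norm_num [Setup.mu, R14.setup]
  · simp only [Setup.mu, R14.setup] at a
    simpa [R14.setup] using DE.R14.bounds (lam := l) (by push_cast at a; linarith) b

/-- No reconstruction on the tree with 15 children up to the threshold. -/
theorem R15.nonrec {lam : ℝ} (h0 : lam < 0) (h1 : -1 / 2 ≤ lam) (hKS : (15 : ℝ) * lam ^ 2 ≤ 1) :
    Tendsto (aRegular 3 15 lam) atTop (𝓝 0) := by
  refine reg_nonrec R15.check_ok rfl (N₀ := 22) (by norm_num) ?_ ?_ (fun l a b => ?_) h0 h1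
    (by exact_mod_cast hKS)
  · norm_num [Setup.mu, R15.setup]
  · norm_num [Setup.mu, R15.setup]
  · simp only [Setup.mu, R15.setup] at a
    simpa [R15.setup] using DE.R15.bounds (lam := l) (by push_cast at a; linarith) b

/-- No reconstruction on the tree with 16 children up to the threshold. -/
theorem R16.nonrec {lam : ℝ} (h0 : lam < 0) (h1 : -1 / 2 ≤ lam) (hKS : (16 : ℝ) * lam ^ 2 ≤ 1) :
    Tendsto (aRegular 3 16 lam) atTop (𝓝 0) := by
  refine reg_nonrec R16.check_ok rfl (N₀ := 18) (by norm_num) ?_ ?_ (fun l a b => ?_) h0 h1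
    (by exact_mod_cast hKS)
  · norm_num [Setup.mu, R16.setup]
  · norm_num [Setup.mu, R16.setup]
  · simp only [Setup.mu, R16.setup] at a
    simpa [R16.setup] using DE.R16.bounds (lam := l) (by push_cast at a; linarith) b

/-- No reconstruction on the tree with 17 children up to the threshold. -/
theorem R17.nonrec {lam : ℝ} (h0 : lam < 0) (h1 : -1 / 2 ≤ lam) (hKS : (17 : ℝ) * lam ^ 2 ≤ 1) :
    Tendsto (aRegular 3 17 lam) atTop (𝓝 0) := by
  refine reg_nonrec R17.check_ok rfl (N₀ := 19) (by norm_num) ?_ ?_ (fun l a b => ?_) h0 h1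
    (by exact_mod_cast hKS)
  · norm_num [Setup.mu, R17.setup]
  · norm_num [Setup.mu, R17.setup]
  · simp only [Setup.mu, R17.setup] at a
    simpa [R17.setup] using DE.R17.bounds (lam := l) (by push_cast at a; linarith) b

/-- No reconstruction on the tree with 18 children up to the threshold. -/
theorem R18.nonrec {lam : ℝ} (h0 : lam < 0) (h1 : -1 / 2 ≤ lam) (hKS : (18 : ℝ) * lam ^ 2 ≤ 1) :
    Tendsto (aRegular 3 18 lam) atTop (𝓝 0) := by
  refine reg_nonrec R18.check_ok rfl (N₀ := 17) (by norm_num) ?_ ?_ (fun l a b => ?_) h0 h1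
    (by exact_mod_cast hKS)
  · norm_num [Setup.mu, R18.setup]
  · norm_num [Setup.mu, R18.setup]
  · simp only [Setup.mu, R18.setup] at a
    simpa [R18.setup] using DE.R18.bounds (lam := l) (by push_cast at a; linarith) b

/-- No reconstruction on the tree with 19 children up to the threshold. -/
theorem R19.nonrec {lam : ℝ} (h0 : lam < 0) (h1 : -1 / 2 ≤ lam) (hKS : (19 : ℝ) * lam ^ 2 ≤ 1) :
    Tendsto (aRegular 3 19 lam) atTop (𝓝 0) := by
  refine reg_nonrec R19.check_ok rfl (N₀ := 18) (by norm_num) ?_ ?_ (fun l a b => ?_) h0 h1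
    (by exact_mod_cast hKS)
  · norm_num [Setup.mu, R19.setup]
  · norm_num [Setup.mu, R19.setup]
  · simp only [Setup.mu, R19.setup] at a
    simpa [R19.setup] using DE.R19.bounds (lam := l) (by push_cast at a; linarith) b

/-- No reconstruction on the tree with 20 children up to the threshold. -/
theorem R20.nonrec {lam : ℝ} (h0 : lam < 0) (h1 : -1 / 2 ≤ lam) (hKS : (20 : ℝ) * lam ^ 2 ≤ 1) :
    Tendsto (aRegular 3 20 lam) atTop (𝓝 0) := by
  refine reg_nonrec R20.check_ok rfl (N₀ := 16) (by norm_num) ?_ ?_ (fun l a b => ?_) h0 h1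
    (by exact_mod_cast hKS)
  · norm_num [Setup.mu, R20.setup]
  · norm_num [Setup.mu, R20.setup]
  · simp only [Setup.mu, R20.setup] at a
    simpa [R20.setup] using DE.R20.bounds (lam := l) (by push_cast at a; linarith) b

/-- No reconstruction on the tree with 21 children up to the threshold. -/
theorem R21.nonrec {lam : ℝ} (h0 : lam < 0) (h1 : -1 / 2 ≤ lam) (hKS : (21 : ℝ) * lam ^ 2 ≤ 1) :
    Tendsto (aRegular 3 21 lam) atTop (𝓝 0) := by
  refine reg_nonrec R21.check_ok rfl (N₀ := 17) (by norm_num) ?_ ?_ (fun l a b => ?_) h0 h1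
    (by exact_mod_cast hKS)
  · norm_num [Setup.mu, R21.setup]
  · norm_num [Setup.mu, R21.setup]
  · simp only [Setup.mu, R21.setup] at a
    simpa [R21.setup] using DE.R21.bounds (lam := l) (by push_cast at a; linarith) b

/-- No reconstruction on the tree with 22 children up to the threshold. -/
theorem R22.nonrec {lam : ℝ} (h0 : lam < 0) (h1 : -1 / 2 ≤ lam) (hKS : (22 : ℝ) * lam ^ 2 ≤ 1) :
    Tendsto (aRegular 3 22 lam) atTop (𝓝 0) := by
  refine reg_nonrec R22.check_ok rfl (N₀ := 16) (by norm_num) ?_ ?_ (fun l a b => ?_) h0 h1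
    (by exact_mod_cast hKS)
  · norm_num [Setup.mu, R22.setup]
  · norm_num [Setup.mu, R22.setup]
  · simp only [Setup.mu, R22.setup] at a
    simpa [R22.setup] using DE.R22.bounds (lam := l) (by push_cast at a; linarith) b

/-- No reconstruction on the tree with 23 children up to the threshold. -/
theorem R23.nonrec {lam : ℝ} (h0 : lam < 0) (h1 : -1 / 2 ≤ lam) (hKS : (23 : ℝ) * lam ^ 2 ≤ 1) :
    Tendsto (aRegular 3 23 lam) atTop (𝓝 0) := by
  refine reg_nonrec R23.check_ok rfl (N₀ := 18) (by norm_num) ?_ ?_ (fun l a b => ?_) h0 h1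
    (by exact_mod_cast hKS)
  · norm_num [Setup.mu, R23.setup]
  · norm_num [Setup.mu, R23.setup]
  · simp only [Setup.mu, R23.setup] at a
    simpa [R23.setup] using DE.R23.bounds (lam := l) (by push_cast at a; linarith) b

/-- No reconstruction on the tree with 24 children up to the threshold. -/
theorem R24.nonrec {lam : ℝ} (h0 : lam < 0) (h1 : -1 / 2 ≤ lam) (hKS : (24 : ℝ) * lam ^ 2 ≤ 1) :
    Tendsto (aRegular 3 24 lam) atTop (𝓝 0) := by
  refine reg_nonrec R24.check_ok rfl (N₀ := 16) (by norm_num) ?_ ?_ (fun l a b => ?_) h0 h1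
    (by exact_mod_cast hKS)
  · norm_num [Setup.mu, R24.setup]
  · norm_num [Setup.mu, R24.setup]
  · simp only [Setup.mu, R24.setup] at a
    simpa [R24.setup] using DE.R24.bounds (lam := l) (by push_cast at a; linarith) b

/-- No reconstruction on the tree with 25 children up to the threshold. -/
theorem R25.nonrec {lam : ℝ} (h0 : lam < 0) (h1 : -1 / 2 ≤ lam) (hKS : (25 : ℝ) * lam ^ 2 ≤ 1) :
    Tendsto (aRegular 3 25 lam) atTop (𝓝 0) := by
  refine reg_nonrec R25.check_ok rfl (N₀ := 17) (by norm_num) ?_ ?_ (fun l a b => ?_) h0 h1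
    (by exact_mod_cast hKS)
  · norm_num [Setup.mu, R25.setup]
  · norm_num [Setup.mu, R25.setup]
  · simp only [Setup.mu, R25.setup] at a
    simpa [R25.setup] using DE.R25.bounds (lam := l) (by push_cast at a; linarith) b

/-- No reconstruction on the tree with 26 children up to the threshold. -/
theorem R26.nonrec {lam : ℝ} (h0 : lam < 0) (h1 : -1 / 2 ≤ lam) (hKS : (26 : ℝ) * lam ^ 2 ≤ 1) :
    Tendsto (aRegular 3 26 lam) atTop (𝓝 0) := by
  refine reg_nonrec R26.check_ok rfl (N₀ := 16) (by norm_num) ?_ ?_ (fun l a b => ?_) h0 h1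
    (by exact_mod_cast hKS)
  · norm_num [Setup.mu, R26.setup]
  · norm_num [Setup.mu, R26.setup]
  · simp only [Setup.mu, R26.setup] at a
    simpa [R26.setup] using DE.R26.bounds (lam := l) (by push_cast at a; linarith) b

end Vale.Agent.P154.Q3.End
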